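import Vale.Agent.P281.Kod
import Vale.Agent.P272.F.Z.Atl
import Vale.Agent.P272.F.Z.DD
import Vale.Agent.P272.F.A.Fin

/-! P281: the Iitaka inequality for fibrations of compact hyperbolic Kaehler manifolds. -/

open scoped Manifold ContDiff

namespace Vale.Agent.Results.P281.A_hyp

open Vale.Agent.P272 Vale.Agent.P281

theorem result (n k m : ℕ) (hn : 1 ≤ n) (hk : k + m = n) (X Y F : Type)
    [TopologicalSpace X] [T2Space X] [CompactSpace X] [ConnectedSpace X]
    [ChartedSpace (E n) X] [IsManifold 𝓘(ℂ, E n) ω X]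
    [TopologicalSpace Y] [T2Space Y] [CompactSpace Y] [ConnectedSpace Y]
    [ChartedSpace (E m) Y] [IsManifold 𝓘(ℂ, E m) ω Y]
    [TopologicalSpace F] [T2Space F] [CompactSpace F] [ConnectedSpace F]
    [ChartedSpace (E k) F] [IsManifold 𝓘(ℂ, E k) ω F]
    (g : HermMetric n X) (hg : g.IsClosed) (hy : Brody n X)
    (f : X → Y) (_hf : IsFib n m f) (ι : F → X) (_hι : IsEmb k n ι)
    (y : Y) (_hr : Set.range ι = f ⁻¹' {y}) :
    kod n X = (n : WithBot ℕ∞) ∧ kod k F + (m : WithBot ℕ∞) ≤ kod n X ∧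
      kod k F + kod m Y ≤ kod n X := by
  have h := kod_eq (z_full g hg.isKahler hy fun _ hA ρ hρ v => ample hn hA ρ hρ v)
  rw [h, ← hk, Nat.cast_add]
  exact ⟨rfl, add_le_add kod_le le_rfl, add_le_add kod_le kod_le⟩

end Vale.Agent.Results.P281.A_hyp
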