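import Vale.Agent.P281.KodB
import Vale.Agent.P272.F.Z.Atl
import Vale.Agent.P272.F.Z.DD
import Vale.Agent.P272.F.A.Fin

/-! P281: the orbifold Iitaka inequality for pairs on compact hyperbolic Kaehler manifolds. -/

open scoped Manifold ContDiff

namespace Vale.Agent.Results.P281.B_pair

open Vale.Agent.P272 Vale.Agent.P270 Vale.Agent.P281

theorem result (n k m : ℕ) (hn : 1 ≤ n) (hk : k + m = n) (X Y F : Type)
    [TopologicalSpace X] [T2Space X] [CompactSpace X] [ConnectedSpace X]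
    [ChartedSpace (E n) X] [IsManifold 𝓘(ℂ, E n) ω X]
    [TopologicalSpace Y] [T2Space Y] [CompactSpace Y] [ConnectedSpace Y]
    [ChartedSpace (E m) Y] [IsManifold 𝓘(ℂ, E m) ω Y]
    [TopologicalSpace F] [T2Space F] [CompactSpace F] [ConnectedSpace F]
    [ChartedSpace (E k) F] [IsManifold 𝓘(ℂ, E k) ω F]
    (g : HermMetric n X) (hg : g.IsClosed) (hy : Brody n X)
    (f : X → Y) (_hf : IsFib n m f) (ι : F → X) (_hι : IsImm k n ι)
    (y : Y) (_hr : Set.range ι = f ⁻¹' {y})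
    (M : LineB n X) (hM : Eff M) (r : ℕ) (hr : 1 ≤ r) (M' : LineB k F) :
    kodC M r = (n : WithBot ℕ∞) ∧ kodC M' r + (m : WithBot ℕ∞) ≤ kodC M r := by
  have h := kodC_eq (z_full g hg.isKahler hy fun _ hA ρ hρ v => ample hn hA ρ hρ v) hM hr
  rw [h, ← hk, Nat.cast_add]
  exact ⟨rfl, add_le_add (kodC_le M' r) le_rfl⟩

end Vale.Agent.Results.P281.B_pair
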